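import Mathlib

/-!
# Elements whose centralizer has a tame character
-/

open Pointwise Filter

namespace Vale.Agent.P184.H250

/-- The centralizer of `x` has a real character `ψ` with `ψ x ≠ 0` which, for every finite `S`, is
bounded by `w m` at the elements `c` with a conjugate in `S ^ m`, where `log w(m) = o((log m)²)`. -/
def PsiTame {G : Type*} [Group G] (x : G) : Prop :=
  ∃ ψ : G → ℝ, (∀ g h, Commute g x → Commute h x → ψ (g * h) = ψ g + ψ h) ∧ ψ x ≠ 0 ∧
    ∀ S : Finset G, ∃ w : ℕ → ℝ, Monotone w ∧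
      (∀ (m : ℕ) (c p : G), Commute c x → p⁻¹ * c * p ∈ (S : Set G) ^ m → |ψ c| ≤ w m) ∧
      ∀ ε : ℝ, 0 < ε → ∀ᶠ m : ℕ in atTop, w m ≤ Real.exp (ε * Real.log m ^ 2)

end Vale.Agent.P184.H250
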