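import Vale.Agent.P184.H174.Fld
import Vale.Agent.P184.H115.Opt
import Vale.Agent.P184.H250.PsiDef

/-!
# The asymptotic part of the vanishing theorem with a character of the centralizer
-/

open Pointwise Filter

namespace Vale.Agent.P184.H250

open H174 H115

variable {G : Type*} [Group G]

theorem ncard_pow_le (S : Finset G) (b : ℕ) (hb : S.card ≤ b) (R : ℕ) :
    ((S : Set G) ^ R).Finite ∧ ((S : Set G) ^ R).ncard ≤ b ^ R := by
  classical
  have h1 : ((S : Set G) ^ R) = ((S ^ R : Finset G) : Set G) := by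
    rw [Finset.coe_pow]
  refine ⟨by rw [h1]; exact Finset.finite_toSet _, ?_⟩
  rw [h1, Set.ncard_coe_finset]
  exact (Finset.card_pow_le).trans (Nat.pow_le_pow_left hb R)

/-- **The asymptotic part.** If a number `T ≥ 0` satisfies the estimates of the traces for all
fields, then it vanishes. -/
theorem nonpos_of_fields {x : G} (S : Finset G) (hS : ∀ s ∈ S, s⁻¹ ∈ S)
    {ψ : G → ℝ} (hψ : ∀ g h, Commute g x → Commute h x → ψ (g * h) = ψ g + ψ h) (hx : ψ x ≠ 0)
    {w : ℕ → ℝ} (hw : Monotone w)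
    (hb : ∀ (m : ℕ) (c p : G), Commute c x → p⁻¹ * c * p ∈ (S : Set G) ^ m → |ψ c| ≤ w m)
    (hw2 : ∀ ε : ℝ, 0 < ε → ∀ᶠ m : ℕ in atTop, w m ≤ Real.exp (ε * Real.log m ^ 2))
    {T N A : ℝ} (hN : 0 ≤ N) (hA : 0 < A)
    (hT : ∀ (R : ℕ) (χ κ : G → ℝ) (Λ : ℝ), 1 ≤ R → 1 ≤ Λ →
      (∀ g h, Commute g x → Commute h x → χ (g * h) = χ g + χ h) → χ x = 1 →
      (∀ c p, Commute c x → p ∈ core x ((S : Set G) ^ R) → κ (c * p) = χ c + κ p) →
      (∀ p ∈ core x ((S : Set G) ^ R), ∀ s ∈ (S : Set G), p * s ∈ core x ((S : Set G) ^ R) →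
        |κ (p * s) - κ p| ≤ Λ) →
      ∀ k : ℕ, T ≤ Real.pi * Λ * R * N * (A * √k / R) ^ k) : T ≤ 0 := by
  have hx0 : 0 < |ψ x| := abs_pos.2 hx
  set c : ℝ := 1 / (Real.exp 1 * A) ^ 2 with hc
  have hc0 : 0 < c := by positivity
  set b : ℕ := max S.card 2 with hbb
  have hb2 : 2 ≤ b := le_max_right _ _
  have hbc : S.card ≤ b := le_max_left _ _
  have hlb : 0 < Real.log b := Real.log_pos (by exact_mod_cast hb2)
  refine nonpos_of_gauss (C := Real.pi * N * Real.exp 1) hc0 (by positivity) fun R0 => ?_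
  -- the condition on `w`
  set ε : ℝ := c / 8 / Real.log b ^ 2 with hε
  have hε0 : 0 < ε := by positivity
  obtain ⟨m0, hm0⟩ := eventually_atTop.1 (hw2 ε hε0)
  have hpow : Tendsto (fun R : ℕ => b ^ R) atTop atTop := tendsto_pow_atTop_atTop_of_one_lt
    (by omega)
  obtain ⟨R1, hR1⟩ := eventually_atTop.1 (hpow.eventually_ge_atTop m0)
  -- `max 1 (w (b^R) / |ψ x|) ≤ exp (c/4 R^2)` for `R ≥ R2`
  obtain ⟨R2, hR2⟩ : ∃ R2 : ℕ, 1 / |ψ x| ≤ Real.exp (c / 8 * R2 ^ 2) := by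
    obtain ⟨n, hn⟩ := exists_nat_ge (1 / |ψ x| / (c / 8))
    refine ⟨n + 1, ?_⟩
    have h2 : 1 / |ψ x| ≤ n * (c / 8) := by
      rwa [div_le_iff₀ (by positivity)] at hn
    have h3 : (n : ℝ) * (c / 8) ≤ c / 8 * ((n + 1 : ℕ) : ℝ) ^ 2 := by
      push_cast
      have : (n : ℝ) ≤ ((n : ℝ) + 1) ^ 2 := by nlinarith [(Nat.cast_nonneg n : (0 : ℝ) ≤ n)]
      nlinarith
    linarith [Real.add_one_le_exp (c / 8 * ((n + 1 : ℕ) : ℝ) ^ 2)]
  obtain ⟨R3, hR3⟩ := exists_nat_ge R0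
  set R : ℕ := max (max R1 R2) (max R3 1) with hR
  have r1 : R1 ≤ R := (le_max_left _ _).trans (le_max_left _ _)
  have r2 : R2 ≤ R := (le_max_right _ _).trans (le_max_left _ _)
  have r3 : R3 ≤ R := (le_max_left _ _).trans (le_max_right _ _)
  have r4 : 1 ≤ R := (le_max_right _ _).trans (le_max_right _ _)
  have hRp : (0 : ℝ) < R := by exact_mod_cast r4
  obtain ⟨hfin, hcard⟩ := ncard_pow_le S b hbc R
  set χ : G → ℝ := fun g => ψ g / ψ x with hχ
  set w' : ℕ → ℝ := fun m => w m / |ψ x| with hw'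
  have hw'm : Monotone w' := fun m n h => div_le_div_of_nonneg_right (hw h) hx0.le
  have hχadd : ∀ g h, Commute g x → Commute h x → χ (g * h) = χ g + χ h := by
    intro g h hg hh
    simp only [hχ]
    rw [hψ g h hg hh, add_div]
  have hχx : χ x = 1 := div_self hx
  have hχb : ∀ (m : ℕ) (c p : G), Commute c x → p⁻¹ * c * p ∈ (S : Set G) ^ m →
      |χ c| ≤ w' m := by
    intro m c p hc hp
    simp only [hχ, hw']
    rw [abs_div]
    exact div_le_div_of_nonneg_right (hb m c p hc hp) hx0.le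
  set Λ : ℝ := max 1 (w' ((S : Set G) ^ R).ncard) with hΛ
  have hΛ1 : 1 ≤ Λ := le_max_left _ _
  have hΛw : w' ((S : Set G) ^ R).ncard ≤ Λ := le_max_right _ _
  obtain ⟨κ, hκ1, hκ2⟩ := exists_potential (S := (S : Set G)) hχadd hw'm hχb
    (fun s hs => hS s hs) hfin hΛw (by linarith)
  have hk := hT R χ κ Λ r4 hΛ1 hχadd hχx hκ1 hκ2
  have ho := opt (P := Real.pi * Λ * R * N) (by positivity) hA hRp hk
  refine ⟨R, Λ, hR3.trans (by exact_mod_cast r3), by exact_mod_cast r4, ?_, ?_⟩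
  · refine max_le (Real.one_le_exp (by positivity)) ?_
    have h2 : w ((S : Set G) ^ R).ncard ≤ Real.exp (c / 8 * R ^ 2) := by
      refine (hw hcard).trans ((hm0 _ (hR1 R r1)).trans ?_)
      refine Real.exp_le_exp.2 (le_of_eq ?_)
      push_cast
      rw [Real.log_pow, hε]
      field_simp
    have h3 : 1 / |ψ x| ≤ Real.exp (c / 8 * R ^ 2) := by
      refine hR2.trans (Real.exp_le_exp.2 ?_)
      have : (R2 : ℝ) ≤ R := by exact_mod_cast r2
      gcongr
    calc w' ((S : Set G) ^ R).ncard = w ((S : Set G) ^ R).ncard * (1 / |ψ x|) := by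
          simp only [hw']
          ring
      _ ≤ Real.exp (c / 8 * R ^ 2) * Real.exp (c / 8 * R ^ 2) :=
          mul_le_mul h2 h3 (by positivity) (Real.exp_pos _).le
      _ = Real.exp (c / 4 * R ^ 2) := by
          rw [← Real.exp_add]
          ring_nf
  · refine ho.trans (le_of_eq ?_)
    have h4 : -((R : ℝ) / (Real.exp 1 * A)) ^ 2 = -(c * (R : ℝ) ^ 2) := by
      rw [hc]
      ring
    rw [h4]
    ring

end Vale.Agent.P184.H250
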