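import Vale.Agent.P184.H250.Decay2
import Vale.Agent.P184.H250.AsmB1
import Vale.Agent.P184.H174.V
import Vale.Agent.P184.H38.PfD
import Vale.Agent.P184.H38.Arith
import Vale.Agent.P184.H505.A3

/-!
# Vanishing of the traces at elements whose centralizer has a tame character
-/

open Pointwise Filter

namespace Vale.Agent.P184.H250

open Vale.Agent.P184.Un H38 H505

universe u

section Field

variable {G : Type*} [Group G] {S : Set G} {R : ℕ} {x : G} {φ : ℝ} {κ : G → ℝ}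

/-- The twisted functional of the field of 174. -/
noncomputable def pfB (h1 : (1 : G) ∈ S) (hR : 1 ≤ R) {ψ : G → ℝ}
    (hκ : ∀ c p, Commute c x → p ∈ H174.core x (S ^ R) → κ (c * p) = ψ c + κ p)
    (hφ : Real.sin (φ / 2) ≠ 0) (hx : ψ x = 1) : PfData G (ℂ × (G →₀ ℝ)) x where
  v := H174.vv S R x φ κ
  Pf := wk fun a b => H174.BB S R x φ a b
  nil := wk_nil _
  sub A u w B := wk_sub (H174.BB S R x φ) u w A B
  sq A p B := pfd_sq _ (H174.vv S R x φ κ) (fun p => H174.BB_self hR p) A p B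
  cyc p L hL := pfd_cyc _ (H174.vv S R x φ κ) x
    (fun p q => H174.BB_cyc h1 hR hκ hφ hx p q) p L hL
  inv h hh L := pfd_inv _ (H174.vv S R x φ κ) h (fun p q => H174.BB_inv h1 hR hκ hh p q) L
  bd n := pfd_bd _ _ _ H174.abs_BB_le n

theorem pfB_est (h1 : (1 : G) ∈ S) (hS : ∀ s ∈ S, s⁻¹ ∈ S) (hR : 1 ≤ R) {ψ : G → ℝ}
    (hκ : ∀ c p, Commute c x → p ∈ H174.core x (S ^ R) → κ (c * p) = ψ c + κ p)
    {Λ : ℝ} (hΛ1 : 1 ≤ Λ) (hΛ : ∀ p ∈ H174.core x (S ^ R), ∀ s ∈ S,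
      p * s ∈ H174.core x (S ^ R) → |κ (p * s) - κ p| ≤ Λ)
    (hφ : φ = 1 / (Λ * R)) (hs : Real.sin (φ / 2) ≠ 0) (hx : ψ x = 1) (k : ℕ)
    (T : List (G × G × G)) (hT : T.length = k) :
    |(pfB h1 hR hκ hs hx).Pf (T.flatMap fun t =>
      [(pfB h1 hR hκ hs hx).v t.1 - (pfB h1 hR hκ hs hx).v t.2.1,
        (pfB h1 hR hκ hs hx).v t.2.1 - (pfB h1 hR hκ hs hx).v t.2.2])| ≤
      (Real.pi * Λ * R * (459 * √k / R) ^ k) *
        (T.map fun t => H174.len S R (t.1⁻¹ * t.2.1) * H174.len S R (t.2.1⁻¹ * t.2.2)).prod := by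
  have hR0 : (0 : ℝ) < R := H174.R_pos hR
  have hR1 : (1 : ℝ) ≤ R := by exact_mod_cast hR
  have hφ0 : 0 < φ := by
    rw [hφ]
    positivity
  have hΛR : 1 ≤ Λ * R := one_le_mul_of_one_le_of_one_le hΛ1 hR1
  have hφ1 : φ ≤ 1 := by
    rw [hφ, div_le_one (by positivity)]
    exact hΛR
  have hφΛ : φ * Λ * R ≤ 1 := by
    rw [hφ]
    apply le_of_eq
    field_simp
  have hpi := Real.pi_gt_three
  have hsin : 0 < Real.sin (φ / 2) :=
    Real.sin_pos_of_pos_of_lt_pi (by positivity) (by linarith)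
  have hsin2 : 1 / Real.sin (φ / 2) ≤ Real.pi * Λ * R := by
    have h2 := Real.mul_le_sin (x := φ / 2) (by positivity) (by linarith)
    rw [div_le_iff₀ hsin]
    have h3 : 1 = Real.pi * Λ * R * (2 / Real.pi * (φ / 2)) := by
      rw [hφ]
      field_simp
    calc (1 : ℝ) = Real.pi * Λ * R * (2 / Real.pi * (φ / 2)) := h3
      _ ≤ Real.pi * Λ * R * Real.sin (φ / 2) := by gcongr
  have hg : ∀ p q : G, 0 ≤ H174.len S R (p⁻¹ * q) := fun p q => H174.len_nonneg _
  have hinv : ∀ p q : G, H174.len S R (q⁻¹ * p) = H174.len S R (p⁻¹ * q) := fun p q => by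
    rw [← H174.len_inv hS, mul_inv_rev, inv_inv]
  have hu : ∀ p q : G, ‖(H174.vv S R x φ κ p).1 - (H174.vv S R x φ κ q).1‖ ≤
      8 / R * H174.len S R (p⁻¹ * q) := by
    intro p q
    have h2 := H174.uL h1 hS hR hΛ hφ0.le hφΛ q (q⁻¹ * p)
    rw [mul_inv_cancel_left, hinv] at h2
    exact h2
  have hw : ∀ p p' q q' : G, |H38.frS (H174.kA S R x)
      ((H174.vv S R x φ κ p).2 - (H174.vv S R x φ κ p').2)
      ((H174.vv S R x φ κ q).2 - (H174.vv S R x φ κ q').2)| ≤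
      100 / R * H174.len S R (p⁻¹ * p') * H174.len S R (q⁻¹ * q') := by
    intro p p' q q'
    have h2 := H174.sL (x := x) hS hR p' (p'⁻¹ * p) q' (q'⁻¹ * q)
    rw [mul_inv_cancel_left, mul_inv_cancel_left, hinv p p', hinv q q'] at h2
    exact h2
  have h := flat_th (H38.frS (H174.kA S R x)) φ hsin (H174.vv S R x φ κ)
    (fun p q => H174.len S R (p⁻¹ * q)) hg (8 / R) (100 / R) (by positivity) (by positivity)
    hu hw k T hT
  refine h.trans ?_
  have hprod : 0 ≤ (T.map fun t => H174.len S R (t.1⁻¹ * t.2.1) *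
      H174.len S R (t.2.1⁻¹ * t.2.2)).prod := by
    refine List.prod_nonneg fun a ha => ?_
    obtain ⟨t, -, rfl⟩ := List.mem_map.1 ha
    exact mul_nonneg (H174.len_nonneg _) (H174.len_nonneg _)
  refine mul_le_mul_of_nonneg_right ?_ hprod
  exact mul_le_mul hsin2 (est_arith hR1 k) (by positivity) (by positivity)

end Field

section Main

variable {G : Type u} [Group G]

theorem gen_iff {S : Finset G} {g : G} : H174.Gen (S : Set G) g ↔ ∃ n, IsWd S n g :=
  exists_congr fun _ => isWd_iff.symm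

theorem wl_eq {S : Finset G} {g : G} (h : ∃ n, IsWd S n g) : H174.wl (S : Set G) g = wl S g := by
  refine le_antisymm (H174.wl_le (isWd_iff.1 (wl_spec h))) (wl_le ?_)
  exact isWd_iff.2 (H174.mem_pow_wl (gen_iff.2 h))

/-- **Vanishing at elements whose centralizer has a tame character.** -/
theorem vanishesAt_of_psiTame {x : G} (h : PsiTame x) : VanishesAt x := by
  obtain ⟨ψ, hψ, hx, hw⟩ := h
  intro q e he
  obtain ⟨S, f, -, h1, hS, hf, htau, hf0, hf1⟩ := exists_decay_moment e he ∅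
  obtain ⟨w, hwm, hwb, hwe⟩ := hw S
  rw [← htau, ← norm_le_zero_iff]
  set N0 : ℝ := ∑ i, ∑ j, ∑' g, ‖f i j g‖ with hN0
  set N1 : ℝ := ∑ i, ∑ j, ∑' g, ‖f i j g‖ * (wl S g : ℝ) with hN1
  have hN00 : 0 ≤ N0 := Finset.sum_nonneg fun i _ => Finset.sum_nonneg fun j _ =>
    tsum_nonneg fun g => norm_nonneg _
  have hN10 : 0 ≤ N1 := Finset.sum_nonneg fun i _ => Finset.sum_nonneg fun j _ =>
    tsum_nonneg fun g => by positivity
  refine nonpos_of_fields (N := N0) (A := 459 * (N0 * N1 ^ 2) + 1) S hS hψ hx hwm hwb hwe hN00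
    (by positivity) fun R χ κ Λ hR hΛ1 hχ hχx hκ hΛ k => ?_
  have hR0 : (0 : ℝ) < R := H174.R_pos hR
  have hR1 : (1 : ℝ) ≤ R := by exact_mod_cast hR
  have hs : Real.sin (1 / (Λ * R) / 2) ≠ 0 := by
    refine (Real.sin_pos_of_pos_of_lt_pi (by positivity) ?_).ne'
    have hΛR : 1 ≤ Λ * R := one_le_mul_of_one_le_of_one_le hΛ1 hR1
    have h2 : 1 / (Λ * R) ≤ 1 := by
      rw [div_le_one (by positivity)]
      exact hΛR
    have := Real.pi_gt_three
    linarith
  have hlen : ∀ i j g, ‖f i j g‖ * H174.len (S : Set G) R g = ‖f i j g‖ * (wl S g : ℝ) := by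
    intro i j g
    by_cases hg : ∃ n, IsWd S n g
    · rw [H174.len_of_gen (gen_iff.2 hg), wl_eq hg]
    · rw [hf0 i j g hg, norm_zero, zero_mul, zero_mul]
  have hb := (pfB (S := (S : Set G)) (by exact_mod_cast h1) hR hκ hs hχx).bound f hf
    (H174.len (S : Set G) R) (fun g => H174.len_nonneg _)
    (fun i j => by simpa only [hlen] using hf1 i j) k (Real.pi * Λ * R * (459 * √k / R) ^ k)
    (by positivity)
    (fun T hT => pfB_est (by exact_mod_cast h1) (fun s hs => by exact_mod_cast hS s hs) hR hκ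
      hΛ1 hΛ rfl hs hχx k T hT)
  simp only [hlen] at hb
  refine hb.trans ?_
  rw [← hN0, ← hN1]
  calc Real.pi * Λ * R * (459 * √k / R) ^ k * N0 ^ (k + 1) * N1 ^ (2 * k) =
      Real.pi * Λ * R * N0 * (459 * (N0 * N1 ^ 2) * √k / R) ^ k := by
        rw [pow_succ N0 k, pow_mul N1 2 k]
        rw [show 459 * (N0 * N1 ^ 2) * √(k : ℝ) / R = 459 * √k / R * N0 * N1 ^ 2 by ring,
          mul_pow, mul_pow]
        ring
    _ ≤ Real.pi * Λ * R * N0 * ((459 * (N0 * N1 ^ 2) + 1) * √k / R) ^ k := by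
        gcongr
        linarith

end Main

end Vale.Agent.P184.H250
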