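import Vale.Agent.P184.H250.Decay

/-!
# Idempotents which decay exponentially: the reduction
-/

open scoped ENNReal

namespace Vale.Agent.P184.H250

open Vale.Agent.P184.Un Vale.Agent.P184.H57 Vale.Agent.P184.H57.Lim Ker

universe u v

section Main

variable {G R : Type*} [Group G] [NormedRing R] [NormOneClass R] [CompleteSpace R]
  [NormedAlgebra ℂ R]

theorem decay_main {E : Ker G R} (hE : Inv E) (hE2 : E * E = E) {β : ℝ} (hβ : 0 ≤ β)
    (F : Finset G) :
    ∃ (S : Finset G) (b : Ker G R), F ⊆ S ∧ 1 ∈ S ∧ (∀ s ∈ S, s⁻¹ ∈ S) ∧ Inv b ∧ b * b = b ∧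
      ‖(2 * b - 1) * (E - b)‖ < 1 ∧ (∀ g, (¬ ∃ n, IsWd S n g) → b.e 1 g = 0) ∧
      Summable fun g => ‖b.e 1 g‖ * Real.exp (β * wl S g) := by
  classical
  set B : ℝ := Real.exp (2 * β) with hB
  have hB1 : 1 ≤ B := Real.one_le_exp (by positivity)
  set M : ℝ := 2 * (B * (‖E‖ + 1)) + 3 with hM
  have hn := norm_nonneg E
  have hM3 : 3 ≤ M := by
    have : 0 ≤ B * (‖E‖ + 1) := by positivity
    linarith
  have hME : 2 * (‖E‖ + 1) + 3 ≤ M := by
    have : ‖E‖ + 1 ≤ B * (‖E‖ + 1) := le_mul_of_one_le_left (by positivity) hB1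
    linarith
  have hM0 : 0 < M := by linarith
  set δ : ℝ := 1 / (8 * B * M ^ 3) with hδ
  have hδ0 : 0 < δ := by positivity
  have hδB : B * M * (M * δ) = 1 / (8 * M) := by
    rw [hδ]
    field_simp
  have hM1 : 1 / (8 * M) ≤ 1 / 24 := by
    rw [div_le_div_iff₀ (by positivity) (by norm_num)]
    linarith
  have hδ1 : δ ≤ 1 / 216 := by
    rw [hδ, div_le_div_iff₀ (by positivity) (by norm_num)]
    have h1 : (27 : ℝ) ≤ M ^ 3 := by
      calc (27 : ℝ) = 3 ^ 3 := by norm_num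
        _ ≤ M ^ 3 := pow_le_pow_left₀ (by norm_num) hM3 3
    have h2 : M ^ 3 ≤ B * M ^ 3 := le_mul_of_one_le_left (by positivity) hB1
    linarith
  have h1 : HasSum (fun g => (pt g (E.e 1 g) : Ker G R)) E := by
    have := (sm_pt (MonoidHom.id G) (sm_e E)).of_norm.hasSum
    rwa [show (∑' g, (pt (MonoidHom.id G g) (E.e 1 g) : Ker G R)) = E from fw_id hE] at this
  obtain ⟨S0, hS0⟩ := (Metric.tendsto_nhds.1 h1 δ hδ0).exists
  rw [dist_eq_norm] at hS0
  set a : Ker G R := ∑ x ∈ S0, pt x (E.e 1 x) with ha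
  have n1 : ‖a‖ ≤ ‖E‖ + 1 := by
    have : a = E + (a - E) := by abel
    rw [this]
    refine (norm_add_le _ _).trans ?_
    linarith
  have n2 : ‖a * a - a‖ ≤ M * δ := by
    have e1 : a * a - a = a * (a - E) + (a - E) * E - (a - E) := by
      rw [sub_mul a E E, hE2]
      noncomm_ring
    rw [e1]
    have b1 := norm_mul_le a (a - E)
    have b2 := norm_mul_le (a - E) E
    have b3 := norm_sub_le (a * (a - E) + (a - E) * E) (a - E)
    have b4 := norm_add_le (a * (a - E)) ((a - E) * E)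
    have b5 := norm_nonneg a
    have b7 := norm_nonneg (a - E)
    have b8 : ‖a‖ * ‖a - E‖ ≤ (‖E‖ + 1) * δ := mul_le_mul n1 hS0.le b7 (by positivity)
    have b9 : ‖a - E‖ * ‖E‖ ≤ δ * (‖E‖ + 1) :=
      mul_le_mul hS0.le (by linarith) hn hδ0.le
    have b10 : (2 * (‖E‖ + 1) + 3) * δ ≤ M * δ := mul_le_mul_of_nonneg_right hME hδ0.le
    linarith
  -- the generating set
  set S : Finset G := (S0 ∪ F ∪ {1}) ∪ (S0 ∪ F ∪ {1}).image fun x => x⁻¹ with hS
  have s0 : S0 ⊆ S := fun x hx => Finset.mem_union_left _ (Finset.mem_union_left _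
    (Finset.mem_union_left _ hx))
  have sF : F ⊆ S := fun x hx => Finset.mem_union_left _ (Finset.mem_union_left _
    (Finset.mem_union_right _ hx))
  have s1 : (1 : G) ∈ S := Finset.mem_union_left _ (Finset.mem_union_right _ (by simp))
  have sI : ∀ s ∈ S, s⁻¹ ∈ S := by
    intro s hs
    rcases Finset.mem_union.1 hs with hs | hs
    · exact Finset.mem_union_right _ (Finset.mem_image_of_mem _ hs)
    · obtain ⟨z, hz, rfl⟩ := Finset.mem_image.1 hs
      rw [inv_inv]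
      exact Finset.mem_union_left _ hz
  -- the weight
  set w : G → ℝ := fun g => Real.exp (β * wl S g) with hw
  have hw0 : ∀ p, 0 < w p := fun p => Real.exp_pos _
  have hw1 : w 1 = 1 := by
    simp only [hw, wl_one]
    simp
  have hw2 : ∀ p, 1 ≤ w p := fun p => Real.one_le_exp (by positivity)
  have hstep : ∀ g, (∃ n, IsWd S n g) → ∀ p, w (p * g) ≤ w g * w p := by
    intro g hg p
    simp only [hw]
    rw [← Real.exp_add]
    refine Real.exp_le_exp.2 ?_
    have h2 := (wl_step sI hg p).1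
    have h3 : (wl S (p * g) : ℝ) ≤ wl S p + wl S g := by exact_mod_cast h2
    have h4 := mul_le_mul_of_nonneg_left h3 hβ
    linarith
  have hle : ∀ {g : G} {n : ℕ}, IsWd S n g → n ≤ 2 → w g ≤ B := by
    intro g n hg hn2
    simp only [hw, hB]
    refine Real.exp_le_exp.2 ?_
    have h2 : wl S g ≤ 2 := (wl_le hg).trans hn2
    have h3 : (wl S g : ℝ) ≤ 2 := by exact_mod_cast h2
    have h4 := mul_le_mul_of_nonneg_left h3 hβ
    linarith
  set T : Finset G := S0 ∪ (S0 ×ˢ S0).image fun p => p.1 * p.2 with hT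
  have c0 : S0 ⊆ T := Finset.subset_union_left
  have c1 : ∀ x ∈ S0, ∀ y ∈ S0, x * y ∈ T := fun x hx y hy =>
    Finset.mem_union_right _ (Finset.mem_image.2 ⟨(x, y), Finset.mem_product.2 ⟨hx, hy⟩, rfl⟩)
  have c2 : ∀ x ∈ T, ∃ n ≤ 2, IsWd S n x := by
    intro x hx
    rcases Finset.mem_union.1 hx with hx | hx
    · exact ⟨1, by norm_num, isWd_of_mem (s0 hx)⟩
    · obtain ⟨p, hp, rfl⟩ := Finset.mem_image.1 hx
      obtain ⟨h3, h4⟩ := Finset.mem_product.1 hp
      exact ⟨1 + 1, le_rfl, (isWd_of_mem (s0 h3)).mul (isWd_of_mem (s0 h4))⟩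
  have c3 : ∀ x ∈ T, ∀ p, w (p * x) ≤ B * w p := by
    intro x hx p
    obtain ⟨n, hn2, hx2⟩ := c2 x hx
    exact (hstep x ⟨n, hx2⟩ p).trans (mul_le_mul_of_nonneg_right (hle hx2 hn2) (hw0 p).le)
  have c4 : ∀ x ∈ T, Adm w x := fun x hx => ⟨B, c3 x hx⟩
  have hB0 : 0 ≤ B := by linarith
  set at' : Ker G R := ∑ x ∈ S0, ut w x (E.e 1 x) with hat
  have d1 : a * a - a = ∑ z ∈ T, (pt z (cf S0 (fun g => E.e 1 g) z) : Ker G R) :=
    lift_sq (fun x => x) S0 T (fun g => E.e 1 g) c0 c1 fun _ _ _ _ _ => rfl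
  have d2 : at' * at' - at' = ∑ z ∈ T, (ut w z (cf S0 (fun g => E.e 1 g) z) : Ker G R) :=
    ut_sq hw0 S0 T (fun g => E.e 1 g) c0 c1 c4
  have d0 : ∀ (U : Finset G) (c : G → R), U ⊆ T →
      ‖∑ z ∈ U, (ut w z (c z) : Ker G R)‖ ≤ B * ‖∑ z ∈ U, (pt z (c z) : Ker G R)‖ := by
    intro U c hU
    refine (norm_sum_le _ _).trans ((Finset.sum_le_sum fun z hz =>
      norm_ut hw0 (c3 z (hU hz)) hB0 (c z)).trans ?_)
    rw [← Finset.mul_sum]
    exact mul_le_mul_of_nonneg_left (sum_norm_le _ _) hB0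
  have d3 : ‖at' * at' - at'‖ ≤ B * (M * δ) := by
    rw [d2]
    refine (d0 T _ (Finset.Subset.refl _)).trans ?_
    rw [← d1]
    exact mul_le_mul_of_nonneg_left n2 hB0
  have d4 : ‖at'‖ ≤ B * (‖E‖ + 1) := (d0 S0 _ c0).trans (mul_le_mul_of_nonneg_left n1 hB0)
  obtain ⟨d5, d6⟩ := unw_sum (K := wSub S sI) (S0 := S0) hw0 hw2 hw1 (fun g => E.e 1 g)
    (fun x hx => c4 x (c0 hx)) fun x hx => ⟨1, isWd_of_mem (s0 hx)⟩
  have hMt : 4 * M * (B * (M * δ)) = 4 * (B * M * (M * δ)) := by ring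
  obtain ⟨b', b1, b2, b3⟩ := exists_idem d4 d3 (by
    rw [← hM, hMt, hδB]
    linarith) {k : Ker G R | WInv w (wSub S sI) k}
    wInv_closed (fun x hx => WInv.nw hw0 hx) d5
  have b1' : WInv w (wSub S sI) b' := b1
  set b : Ker G R := unw hw0 hw2 b' with hb
  have f1 : ‖b - a‖ ≤ 1 / (4 * M) := by
    rw [hb, ha, ← d6, ← unw_sub hw0 hw2 hw1 b1' d5]
    refine (norm_unw hw0 hw2 _).trans (b3.trans (le_of_eq ?_))
    rw [← hM, show 2 * M * (B * (M * δ)) = 2 * (B * M * (M * δ)) by ring, hδB]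
    field_simp
    norm_num
  have hM4 : 1 / (4 * M) ≤ 1 / 12 := by
    rw [div_le_div_iff₀ (by positivity) (by norm_num)]
    linarith
  have f3 : ‖E - b‖ ≤ 1 / (4 * M) + δ := by
    have : E - b = -(a - E) - (b - a) := by abel
    rw [this]
    refine (norm_sub_le _ _).trans ?_
    rw [norm_neg]
    linarith
  have f4 : ‖b‖ ≤ ‖E‖ + 1 := by
    have : b = E - (E - b) := by abel
    rw [this]
    refine (norm_sub_le _ _).trans ?_
    linarith
  have f5 : ‖2 * b - 1‖ ≤ M := by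
    have a1 : ‖(2 : Ker G R)‖ ≤ 2 := by
      have := Nat.norm_cast_le (α := Ker G R) 2
      simpa using this
    have a2 : ‖2 * b‖ ≤ 2 * (‖E‖ + 1) :=
      (norm_mul_le _ _).trans (mul_le_mul a1 f4 (norm_nonneg _) (by norm_num))
    refine (norm_sub_le _ _).trans ?_
    rw [norm_one]
    linarith
  have f6 : ‖(2 * b - 1) * (E - b)‖ < 1 := by
    calc ‖(2 * b - 1) * (E - b)‖ ≤ M * (1 / (4 * M) + δ) :=
          (norm_mul_le _ _).trans (mul_le_mul f5 f3 (norm_nonneg _) (by linarith))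
      _ = 1 / 4 + M * δ := by field_simp
      _ < 1 := by
        have g1 : M * δ ≤ B * M * (M * δ) := by
          refine le_mul_of_one_le_left (by positivity) ?_
          exact one_le_mul_of_one_le_of_one_le hB1 (by linarith)
        rw [hδB] at g1
        linarith
  have u0 : ∀ g, b.e 1 g = (((w g)⁻¹ : ℝ) : ℂ) • b'.e 1 g := by
    intro g
    rw [hb, e_unw hw0 hw2 hw1 b1', hw1, one_div]
  refine ⟨S, b, sF, s1, sI, inv_kr _ _, ?_, f6, fun g hg => ?_, ?_⟩
  · rw [hb, ← unw_mul hw0 hw2 hw1 b1' b1', b2]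
  · rw [u0, b1'.1 1 g (by rw [inv_one, one_mul]; exact hg), smul_zero]
  · simp_rw [u0]
    exact (unw_sm hw0 hw2 b').2.1

end Main

open scoped Matrix.Norms.Operator in
theorem exists_decay_pos {G : Type u} [Group G] {q : ℕ} [NeZero q] (e : Mat G q) (he : IsIdem e)
    {β : ℝ} (hβ : 0 ≤ β) (F : Finset G) :
    ∃ (S : Finset G) (f : Mat G q), F ⊆ S ∧ 1 ∈ S ∧ (∀ s ∈ S, s⁻¹ ∈ S) ∧ IsIdem f ∧
      (∀ C : ConjClasses G, tau C f = tau C e) ∧
      (∀ i j g, (¬ ∃ n, IsWd S n g) → f i j g = 0) ∧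
      ∀ i j, Summable fun g => ‖f i j g‖ * Real.exp (β * wl S g) := by
  set E : Ker G (MR q) := kr (cm e) (cm_sm he.1) with hE
  have i1 : Inv E := inv_kr _ _
  have o1 : ofK E = e := by
    funext i j g
    change (kr (cm e) (cm_sm he.1)).e 1 g i j = _
    rw [e_kr, inv_one, one_mul]
    rfl
  have i2 : E * E = E := ofK_inj (i1.mul i1) i1 (by rw [← ofK_mul E i1, o1, he.2])
  obtain ⟨S, b, h1, h2, h3, b1, b2, b3, b4, b5⟩ := decay_main i1 i2 hβ F
  have tt : ∀ (k : Ker G (MR q)) (C : ConjClasses G),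
      tau C (ofK k) = tC (trH q) (ind C) k := by
    intro k C
    unfold tau tC
    rw [carrier_eq C fun g => ∑ i, ofK k i i g]
    rfl
  refine ⟨S, ofK b, h1, h2, h3, ⟨ofK_l1 b, by rw [ofK_mul b b1, b2]⟩, fun C => ?_,
    fun i j g hg => ?_, fun i j => ?_⟩
  · have c2 := tC_close (t := trH q) trH_le (w := ind C) (norm_ind C)
      (fun a b => Matrix.trace_mul_comm a b) (ind_mul C) b1 i1 b2 i2 b3
    rw [tt, ← c2, ← tt, o1]
  · change b.e 1 g i j = 0
    rw [b4 g hg]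
    rfl
  · refine Summable.of_nonneg_of_le (fun g => by positivity) (fun g => ?_) b5
    exact mul_le_mul_of_nonneg_right (norm_entry _ i j) (Real.exp_pos _).le

/-- **Reduction to exponential decay.** Every idempotent matrix `e` over `ℓ¹(G)` has the traces of
an idempotent matrix `f` which is supported in the subgroup generated by a finite symmetric set `S`
and decays exponentially, at any given rate `β`, with respect to the word length of `S`. Any given
finite set `F` may be included in `S`. -/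
theorem exists_decay {G : Type u} [Group G] {q : ℕ} (e : Mat G q) (he : IsIdem e)
    {β : ℝ} (hβ : 0 ≤ β) (F : Finset G) :
    ∃ (S : Finset G) (f : Mat G q), F ⊆ S ∧ 1 ∈ S ∧ (∀ s ∈ S, s⁻¹ ∈ S) ∧ IsIdem f ∧
      (∀ C : ConjClasses G, tau C f = tau C e) ∧
      (∀ i j g, (¬ ∃ n, IsWd S n g) → f i j g = 0) ∧
      ∀ i j, Summable fun g => ‖f i j g‖ * Real.exp (β * wl S g) := by
  classical
  rcases Nat.eq_zero_or_pos q with rfl | hq
  · refine ⟨(F ∪ {1}) ∪ (F ∪ {1}).image fun x => x⁻¹, e, fun x hx => ?_, ?_, fun s hs => ?_, he,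
      fun C => rfl, fun i => i.elim0, fun i => i.elim0⟩
    · exact Finset.mem_union_left _ (Finset.mem_union_left _ hx)
    · exact Finset.mem_union_left _ (Finset.mem_union_right _ (by simp))
    · rcases Finset.mem_union.1 hs with hs | hs
      · exact Finset.mem_union_right _ (Finset.mem_image_of_mem _ hs)
      · obtain ⟨z, hz, rfl⟩ := Finset.mem_image.1 hs
        rw [inv_inv]
        exact Finset.mem_union_left _ hz
  · have : NeZero q := ⟨hq.ne'⟩
    exact exists_decay_pos e he hβ F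

/-- Form with the moments used in the estimates. -/
theorem exists_decay_moment {G : Type u} [Group G] {q : ℕ} (e : Mat G q) (he : IsIdem e)
    (F : Finset G) :
    ∃ (S : Finset G) (f : Mat G q), F ⊆ S ∧ 1 ∈ S ∧ (∀ s ∈ S, s⁻¹ ∈ S) ∧ IsIdem f ∧
      (∀ C : ConjClasses G, tau C f = tau C e) ∧
      (∀ i j g, (¬ ∃ n, IsWd S n g) → f i j g = 0) ∧
      ∀ i j, Summable fun g => ‖f i j g‖ * (wl S g : ℝ) := by
  obtain ⟨S, f, h1, h2, h3, h4, h5, h6, h7⟩ := exists_decay e he zero_le_one F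
  refine ⟨S, f, h1, h2, h3, h4, h5, h6, fun i j => ?_⟩
  refine Summable.of_nonneg_of_le (fun g => by positivity) (fun g => ?_) (h7 i j)
  refine mul_le_mul_of_nonneg_left ?_ (norm_nonneg _)
  have := Real.add_one_le_exp (1 * (wl S g : ℝ))
  linarith

end Vale.Agent.P184.H250
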