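import Mathlib

/-!
# Word length with respect to a finite set
-/

namespace Vale.Agent.P184.H250

variable {G : Type*} [Group G]

/-- `g` is a product of `n` elements of `S`. -/
def IsWd (S : Finset G) (n : ℕ) (g : G) : Prop :=
  ∃ l : List G, l.length = n ∧ (∀ y ∈ l, y ∈ S) ∧ l.prod = g

open Classical in
/-- The word length; the value is `0` for elements which are not products of elements of `S`. -/
noncomputable def wl (S : Finset G) (g : G) : ℕ :=
  if h : ∃ n, IsWd S n g then Nat.find h else 0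

theorem IsWd.mul {S : Finset G} {m n : ℕ} {g h : G} (hg : IsWd S m g) (hh : IsWd S n h) :
    IsWd S (m + n) (g * h) := by
  obtain ⟨l, h1, h2, h3⟩ := hg
  obtain ⟨l', h1', h2', h3'⟩ := hh
  refine ⟨l ++ l', by rw [List.length_append, h1, h1'], fun y hy => ?_, by
    rw [List.prod_append, h3, h3']⟩
  rcases List.mem_append.1 hy with hy | hy
  · exact h2 y hy
  · exact h2' y hy

theorem isWd_one (S : Finset G) : IsWd S 0 (1 : G) := ⟨[], rfl, by simp, rfl⟩

theorem isWd_of_mem {S : Finset G} {g : G} (h : g ∈ S) : IsWd S 1 g :=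
  ⟨[g], rfl, by simpa using h, by simp⟩

open Pointwise in
theorem isWd_iff {S : Finset G} {n : ℕ} {g : G} : IsWd S n g ↔ g ∈ (S : Set G) ^ n := by
  induction n generalizing g with
  | zero =>
    rw [pow_zero, Set.mem_one]
    constructor
    · rintro ⟨l, h1, -, h3⟩
      rw [List.length_eq_zero_iff] at h1
      rw [← h3, h1, List.prod_nil]
    · rintro rfl
      exact isWd_one S
  | succ n ih =>
    rw [pow_succ, Set.mem_mul]
    constructor
    · rintro ⟨l, h1, h2, h3⟩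
      rcases List.eq_nil_or_concat l with rfl | ⟨l', a, rfl⟩
      · simp at h1
      · rw [List.concat_eq_append] at *
        refine ⟨l'.prod, ih.1 ⟨l', by simpa using h1, fun y hy => h2 y (by simp [hy]), rfl⟩, a,
          h2 a (by simp), ?_⟩
        rw [← h3, List.prod_append, List.prod_singleton]
    · rintro ⟨a, ha, b, hb, rfl⟩
      exact (ih.2 ha).mul (isWd_of_mem hb)

theorem IsWd.inv {S : Finset G} (hS : ∀ s ∈ S, s⁻¹ ∈ S) {n : ℕ} {g : G} (hg : IsWd S n g) :
    IsWd S n g⁻¹ := by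
  obtain ⟨l, h1, h2, h3⟩ := hg
  refine ⟨(l.map fun x => x⁻¹).reverse, by simpa using h1, fun y hy => ?_, ?_⟩
  · rw [List.mem_reverse, List.mem_map] at hy
    obtain ⟨z, hz, rfl⟩ := hy
    exact hS z (h2 z hz)
  · rw [← h3, List.prod_inv_reverse]

/-- The products of elements of the symmetric set `S`. -/
def wSub (S : Finset G) (hS : ∀ s ∈ S, s⁻¹ ∈ S) : Subgroup G where
  carrier := {g | ∃ n, IsWd S n g}
  one_mem' := ⟨0, isWd_one S⟩
  mul_mem' := fun ⟨m, hm⟩ ⟨n, hn⟩ => ⟨m + n, hm.mul hn⟩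
  inv_mem' := fun ⟨m, hm⟩ => ⟨m, hm.inv hS⟩

theorem mem_wSub {S : Finset G} (hS : ∀ s ∈ S, s⁻¹ ∈ S) {g : G} :
    g ∈ wSub S hS ↔ ∃ n, IsWd S n g := Iff.rfl

theorem wl_spec {S : Finset G} {g : G} (h : ∃ n, IsWd S n g) : IsWd S (wl S g) g := by
  classical
  unfold wl
  rw [dif_pos h]
  exact Nat.find_spec h

theorem wl_le {S : Finset G} {g : G} {n : ℕ} (h : IsWd S n g) : wl S g ≤ n := by
  classical
  unfold wl
  rw [dif_pos ⟨n, h⟩]
  exact Nat.find_min' _ h

theorem wl_of_not {S : Finset G} {g : G} (h : ¬ ∃ n, IsWd S n g) : wl S g = 0 := by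
  classical
  unfold wl
  rw [dif_neg h]

theorem wl_one (S : Finset G) : wl S (1 : G) = 0 := Nat.le_zero.1 (wl_le (isWd_one S))

theorem wl_mul {S : Finset G} {g h : G} (hg : ∃ n, IsWd S n g) (hh : ∃ n, IsWd S n h) :
    wl S (g * h) ≤ wl S g + wl S h := wl_le ((wl_spec hg).mul (wl_spec hh))

theorem exWd_inv {S : Finset G} (hS : ∀ s ∈ S, s⁻¹ ∈ S) {g : G} :
    (∃ n, IsWd S n g⁻¹) ↔ ∃ n, IsWd S n g :=
  ⟨fun ⟨n, hn⟩ => ⟨n, by simpa using hn.inv hS⟩, fun ⟨n, hn⟩ => ⟨n, hn.inv hS⟩⟩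

theorem wl_inv {S : Finset G} (hS : ∀ s ∈ S, s⁻¹ ∈ S) (g : G) : wl S g⁻¹ = wl S g := by
  by_cases h : ∃ n, IsWd S n g
  · have h' := (exWd_inv hS).2 h
    refine le_antisymm (wl_le ((wl_spec h).inv hS)) (wl_le ?_)
    have := (wl_spec h').inv hS
    rwa [inv_inv] at this
  · rw [wl_of_not h, wl_of_not fun h' => h ((exWd_inv hS).1 h')]

theorem exWd_mul_right {S : Finset G} (hS : ∀ s ∈ S, s⁻¹ ∈ S) {g : G} (p : G)
    (hg : ∃ n, IsWd S n g) : (∃ n, IsWd S n (p * g)) ↔ ∃ n, IsWd S n p := by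
  refine ⟨fun ⟨m, hm⟩ => ?_, fun ⟨m, hm⟩ => ?_⟩
  · obtain ⟨n, hn⟩ := hg
    have := hm.mul (hn.inv hS)
    rw [mul_inv_cancel_right] at this
    exact ⟨_, this⟩
  · obtain ⟨n, hn⟩ := hg
    exact ⟨_, hm.mul hn⟩

theorem exWd_mul_left {S : Finset G} (hS : ∀ s ∈ S, s⁻¹ ∈ S) {g : G} (p : G)
    (hg : ∃ n, IsWd S n g) : (∃ n, IsWd S n (g * p)) ↔ ∃ n, IsWd S n p := by
  refine ⟨fun ⟨m, hm⟩ => ?_, fun ⟨m, hm⟩ => ?_⟩
  · obtain ⟨n, hn⟩ := hg
    have := (hn.inv hS).mul hm
    rw [inv_mul_cancel_left] at this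
    exact ⟨_, this⟩
  · obtain ⟨n, hn⟩ := hg
    exact ⟨_, hn.mul hm⟩

/-- The word length changes by at most the length of the step. -/
theorem wl_step {S : Finset G} (hS : ∀ s ∈ S, s⁻¹ ∈ S) {g : G} (hg : ∃ n, IsWd S n g) (p : G) :
    wl S (p * g) ≤ wl S p + wl S g ∧ wl S p ≤ wl S (p * g) + wl S g := by
  by_cases hp : ∃ n, IsWd S n p
  · refine ⟨wl_mul hp hg, ?_⟩
    have h1 := wl_mul ((exWd_mul_right hS p hg).2 hp) ((exWd_inv hS).2 hg)
    rwa [mul_inv_cancel_right, wl_inv hS] at h1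
  · have hp' := fun h => hp ((exWd_mul_right hS p hg).1 h)
    rw [wl_of_not hp, wl_of_not hp']
    omega

/-- The truncated kernel of the word length. -/
noncomputable def al (S : Finset G) (n : ℕ) (g : G) : ℝ :=
  open Classical in if ∃ m, IsWd S m g then max 0 (1 - wl S g / n) else 0

theorem al_one (S : Finset G) (n : ℕ) : al S n (1 : G) = 1 := by
  unfold al
  rw [if_pos ⟨0, isWd_one S⟩, wl_one]
  simp

theorem al_inv {S : Finset G} (hS : ∀ s ∈ S, s⁻¹ ∈ S) (n : ℕ) (g : G) : al S n g⁻¹ = al S n g := by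
  classical
  unfold al
  rw [wl_inv hS]
  by_cases h : ∃ m, IsWd S m g
  · rw [if_pos h, if_pos ((exWd_inv hS).2 h)]
  · rw [if_neg h, if_neg fun h' => h ((exWd_inv hS).1 h')]

theorem al_nonneg (S : Finset G) (n : ℕ) (g : G) : 0 ≤ al S n g := by
  unfold al
  split_ifs
  · exact le_max_left _ _
  · exact le_rfl

theorem al_le_one (S : Finset G) (n : ℕ) (g : G) : al S n g ≤ 1 := by
  unfold al
  split_ifs
  · refine max_le zero_le_one ?_
    have : (0 : ℝ) ≤ wl S g / n := by positivity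
    linarith
  · exact zero_le_one

theorem al_zero {S : Finset G} {n : ℕ} (hn : 0 < n) {g : G} (h : ∀ m < n, ¬ IsWd S m g) :
    al S n g = 0 := by
  unfold al
  split_ifs with h1
  · refine max_eq_left ?_
    have h2 : n ≤ wl S g := by
      by_contra h3
      exact h _ (not_le.1 h3) (wl_spec h1)
    have h4 : (0 : ℝ) < n := by exact_mod_cast hn
    have h5 : (n : ℝ) ≤ wl S g := by exact_mod_cast h2
    have h6 : 1 ≤ (wl S g : ℝ) / n := by rwa [le_div_iff₀ h4, one_mul]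
    linarith
  · rfl

theorem al_step {S : Finset G} (hS : ∀ s ∈ S, s⁻¹ ∈ S) {n : ℕ} (hn : 0 < n) {g : G}
    (hg : ∃ m, IsWd S m g) (p : G) : |al S n (g * p) - al S n p| ≤ wl S g / n := by
  have h4 : (0 : ℝ) < n := by exact_mod_cast hn
  have key : ∀ p : G, |al S n (p * g) - al S n p| ≤ wl S g / n := by
    intro p
    by_cases hp : ∃ m, IsWd S m p
    · have h1 := wl_step hS hg p
      unfold al
      rw [if_pos hp, if_pos ((exWd_mul_right hS p hg).2 hp)]
      refine (abs_max_sub_max_le_max _ _ _ _).trans ?_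
      rw [sub_self, abs_zero]
      refine max_le (by positivity) ?_
      rw [show (1 - (wl S (p * g) : ℝ) / n) - (1 - (wl S p : ℝ) / n) =
        ((wl S p : ℝ) - wl S (p * g)) / n by ring, abs_div, abs_of_pos h4]
      refine div_le_div_of_nonneg_right ?_ h4.le
      rw [abs_le]
      have a1 : (wl S (p * g) : ℝ) ≤ wl S p + wl S g := by exact_mod_cast h1.1
      have a2 : (wl S p : ℝ) ≤ wl S (p * g) + wl S g := by exact_mod_cast h1.2
      constructor <;> linarith
    · unfold al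
      rw [if_neg hp, if_neg fun h => hp ((exWd_mul_right hS p hg).1 h)]
      simp
      positivity
  have h5 := key
  have h6 : al S n (g * p) = al S n (p⁻¹ * g⁻¹) := by rw [← mul_inv_rev, al_inv hS]
  have h7 : al S n p = al S n p⁻¹ := (al_inv hS n p).symm
  have h8 : ∀ p : G, |al S n (p * g⁻¹) - al S n p| ≤ wl S g / n := by
    intro p
    have := key (p * g⁻¹)
    rwa [inv_mul_cancel_right, abs_sub_comm] at this
  rw [h6, h7]
  exact h8 p⁻¹

end Vale.Agent.P184.H250
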