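import Vale.Agent.P184.Ex.Lim
import Vale.Agent.P184.H250.Wl

/-!
# Idempotents which decay exponentially
-/

open scoped ENNReal

namespace Vale.Agent.P184.H250

open Vale.Agent.P184.Un Vale.Agent.P184.H57 Vale.Agent.P184.H57.Lim Ker

set_option linter.unusedSectionVars false

universe u v

section Wt

variable {G R : Type*} [Group G] [NormedRing R] [NormOneClass R] [CompleteSpace R]
  [NormedAlgebra ℂ R]

/-- The weight `u` grows by a bounded factor under right translation by `g`. -/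
def Adm (u : G → ℝ) (g : G) : Prop := ∃ C, ∀ p, u (p * g) ≤ C * u p

open Classical in
/-- The function `u (p g) / u p • r`. -/
noncomputable def uF (u : G → ℝ) (g : G) (r : R) : Li G R :=
  if h : ∃ C, ∀ p, ‖((u (p * g) / u p : ℝ) : ℂ) • r‖ ≤ C then
    ⟨fun p => ((u (p * g) / u p : ℝ) : ℂ) • r, memℓp_infty ⟨h.choose, by
      rintro _ ⟨p, rfl⟩
      exact h.choose_spec p⟩⟩ else 0

variable {u : G → ℝ} (hu : ∀ p, 0 < u p)

include hu

theorem uF_bd {g : G} {C : ℝ} (hg : ∀ p, u (p * g) ≤ C * u p) (r : R) (p : G) :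
    ‖((u (p * g) / u p : ℝ) : ℂ) • r‖ ≤ C * ‖r‖ := by
  rw [norm_smul, Complex.norm_real, Real.norm_of_nonneg (div_nonneg (hu _).le (hu _).le)]
  refine mul_le_mul_of_nonneg_right ?_ (norm_nonneg _)
  rw [div_le_iff₀ (hu p)]
  exact hg p

theorem uF_apply {g : G} (hg : Adm u g) (r : R) (p : G) :
    (uF u g r).1 p = ((u (p * g) / u p : ℝ) : ℂ) • r := by
  obtain ⟨C, hC⟩ := hg
  unfold uF
  rw [dif_pos ⟨C * ‖r‖, uF_bd hu hC r⟩]

theorem norm_uF {g : G} {C : ℝ} (hg : ∀ p, u (p * g) ≤ C * u p) (hC : 0 ≤ C) (r : R) :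
    ‖uF u g r‖ ≤ C * ‖r‖ := by
  refine lp.norm_le_of_forall_le (by positivity) fun p => ?_
  rw [uF_apply hu ⟨C, hg⟩]
  exact uF_bd hu hg r p

omit hu in
open Classical in
theorem usingle_sm (F : Li G R) (g : G) : Summable fun g' : G => ‖if g' = g then F else 0‖ :=
  summable_of_ne_finset_zero (s := {g}) fun g' hg => by
    rw [if_neg (by simpa using hg), norm_zero]

omit hu in
open Classical in
/-- The weighted translations. -/
noncomputable def ut (u : G → ℝ) (g : G) (r : R) : Ker G R :=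
  Ker.mk (fun g' => if g' = g then uF u g r else 0) (usingle_sm _ g)

theorem norm_ut {g : G} {C : ℝ} (hg : ∀ p, u (p * g) ≤ C * u p) (hC : 0 ≤ C) (r : R) :
    ‖ut u g r‖ ≤ C * ‖r‖ := by
  classical
  rw [norm_def, tsum_eq_single g fun g' hg' => ?_]
  · change ‖if g = g then uF u g r else 0‖ ≤ _
    rw [if_pos rfl]
    exact norm_uF hu hg hC r
  · change ‖if g' = g then uF u g r else 0‖ = 0
    rw [if_neg hg', norm_zero]

open Classical in
theorem e_ut {g : G} (hg : Adm u g) (r : R) (p p' : G) :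
    (ut u g r).e p p' = if p⁻¹ * p' = g then ((u p' / u p : ℝ) : ℂ) • r else 0 := by
  have h : (ut u g r).e p p' = (if p⁻¹ * p' = g then uF u g r else 0 : Li G R).1 p := rfl
  rw [h]
  split_ifs with h1
  · rw [uF_apply hu hg, ← h1, mul_inv_cancel_left]
  · rfl

omit hu in
theorem Adm.mul {g h : G} (hg : Adm u g) (hh : Adm u h) (hC : ∀ p, 0 < u p) : Adm u (g * h) := by
  obtain ⟨C, hC1⟩ := hg
  obtain ⟨D, hD⟩ := hh
  refine ⟨D * C, fun p => ?_⟩
  have hD0 : 0 ≤ D := by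
    by_contra h0
    have := hD 1
    nlinarith [hC 1, hC (1 * h)]
  rw [← mul_assoc]
  refine (hD _).trans ?_
  rw [mul_assoc]
  exact mul_le_mul_of_nonneg_left (hC1 p) hD0

theorem ut_mul {g g' : G} (hg : Adm u g) (hg' : Adm u g') (r r' : R) :
    ut u g r * ut u g' r' = ut u (g * g') (r * r') := by
  classical
  ext p p'
  rw [e_mul, tsum_eq_single (p * g) fun h hh => ?_]
  · rw [e_ut hu hg, e_ut hu hg', e_ut hu (hg.mul hg' hu), if_pos (by group)]
    by_cases h : p⁻¹ * p' = g * g'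
    · rw [if_pos h, if_pos (by rw [mul_inv_rev, mul_assoc, h]; group), smul_mul_smul_comm,
        ← Complex.ofReal_mul]
      congr 2
      have := (hu (p * g)).ne'
      field_simp
    · rw [if_neg h, if_neg, mul_zero]
      intro h2
      apply h
      rw [mul_inv_rev, mul_assoc, inv_mul_eq_iff_eq_mul] at h2
      exact h2
  · rw [e_ut hu hg, if_neg, zero_mul]
    intro h2
    exact hh (by rw [← h2, mul_inv_cancel_left])

theorem ut_add {g : G} (hg : Adm u g) (r r' : R) : ut u g (r + r') = ut u g r + ut u g r' := by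
  classical
  ext p p'
  rw [e_add, e_ut hu hg, e_ut hu hg, e_ut hu hg]
  split_ifs <;> simp

theorem ut_zero {g : G} (hg : Adm u g) : ut u g (0 : R) = 0 := by
  classical
  ext p p'
  rw [e_ut hu hg, e_zero, smul_zero, ite_self]

/-- Weighted translations as additive maps. -/
noncomputable def utH {g : G} (hg : Adm u g) : R →+ Ker G R where
  toFun := ut u g
  map_zero' := ut_zero hu hg
  map_add' := ut_add hu hg

open Classical in
theorem ut_sq (S0 S : Finset G) (a : G → R) (hS0 : S0 ⊆ S)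
    (hS : ∀ x ∈ S0, ∀ y ∈ S0, x * y ∈ S) (hA : ∀ x ∈ S, Adm u x) :
    (∑ x ∈ S0, ut u x (a x)) * (∑ x ∈ S0, ut u x (a x)) - ∑ x ∈ S0, ut u x (a x) =
      ∑ z ∈ S, (ut u z (cf S0 a z) : Ker G R) := by
  have h1 : (∑ x ∈ S0, ut u x (a x)) * (∑ x ∈ S0, ut u x (a x)) =
      ∑ z ∈ S, ∑ p ∈ (S0 ×ˢ S0) with p.1 * p.2 = z, (ut u z (a p.1 * a p.2) : Ker G R) := by
    rw [Finset.sum_mul_sum, ← Finset.sum_product']
    rw [← Finset.sum_fiberwise_of_maps_to (s := S0 ×ˢ S0) (t := S) (g := fun p => p.1 * p.2)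
      (fun p hp => hS _ (Finset.mem_product.1 hp).1 _ (Finset.mem_product.1 hp).2)]
    refine Finset.sum_congr rfl fun z hz => Finset.sum_congr rfl fun p hp => ?_
    obtain ⟨hp1, hp2⟩ := Finset.mem_filter.1 hp
    obtain ⟨hp3, hp4⟩ := Finset.mem_product.1 hp1
    rw [ut_mul hu (hA _ (hS0 hp3)) (hA _ (hS0 hp4)), hp2]
  have h2 : ∑ x ∈ S0, (ut u x (a x) : Ker G R) =
      ∑ z ∈ S, ut u z (if z ∈ S0 then a z else 0) := by
    rw [← Finset.sum_subset hS0 fun z hz hz' => by rw [if_neg hz', ut_zero hu (hA z hz)]]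
    exact Finset.sum_congr rfl fun x hx => by rw [if_pos hx]
  rw [h1, h2, ← Finset.sum_sub_distrib]
  refine Finset.sum_congr rfl fun z hz => ?_
  have h3 : ∑ p ∈ (S0 ×ˢ S0) with p.1 * p.2 = z, (ut u z (a p.1 * a p.2) : Ker G R) =
      ut u z (∑ p ∈ (S0 ×ˢ S0) with p.1 * p.2 = z, a p.1 * a p.2) :=
    (map_sum (utH hu (hA z hz)) _ _).symm
  rw [h3]
  exact (map_sub (utH (R := R) hu (hA z hz)) _ _).symm

omit hu in
/-- The kernels which are invariant up to the weight and propagate in the subgroup `K`. -/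
def WInv (u : G → ℝ) (K : Subgroup G) (k : Ker G R) : Prop :=
  (∀ p p', p⁻¹ * p' ∉ K → k.e p p' = 0) ∧
    ∀ c p p', ((u (c * p) / u (c * p') : ℝ) : ℂ) • k.e (c * p) (c * p') =
      ((u p / u p' : ℝ) : ℂ) • k.e p p'

variable {K : Subgroup G}

theorem WInv.mul {k k' : Ker G R} (h : WInv u K k) (h' : WInv u K k') : WInv u K (k * k') := by
  constructor
  · intro p p' hp
    rw [e_mul]
    refine (tsum_congr fun l => ?_).trans tsum_zero
    by_cases hl : p⁻¹ * l ∈ K
    · have hl' : l⁻¹ * p' ∉ K := fun h2 => hp (by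
        have := K.mul_mem hl h2
        rwa [mul_assoc, mul_inv_cancel_left] at this)
      rw [h'.1 _ _ hl', mul_zero]
    · rw [h.1 _ _ hl, zero_mul]
  · intro c p p'
    rw [e_mul, e_mul, ← tsum_const_smul'', ← tsum_const_smul'', ← (Equiv.mulLeft c).tsum_eq]
    refine tsum_congr fun l => ?_
    rw [Equiv.coe_mulLeft]
    have key : ∀ a b d : G, ((u a / u d : ℝ) : ℂ) • (k.e a b * k'.e b d) =
        (((u a / u b : ℝ) : ℂ) • k.e a b) * (((u b / u d : ℝ) : ℂ) • k'.e b d) := by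
      intro a b d
      rw [smul_mul_smul_comm, ← Complex.ofReal_mul]
      congr 2
      have := (hu b).ne'
      field_simp
    rw [key, key, h.2, h'.2]

theorem WInv.add {k k' : Ker G R} (h : WInv u K k) (h' : WInv u K k') : WInv u K (k + k') :=
  ⟨fun p p' hp => by rw [e_add, h.1 _ _ hp, h'.1 _ _ hp, add_zero], fun c p p' => by
    rw [e_add, e_add, smul_add, smul_add, h.2, h'.2]⟩

theorem WInv.sub {k k' : Ker G R} (h : WInv u K k) (h' : WInv u K k') : WInv u K (k - k') :=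
  ⟨fun p p' hp => by rw [e_sub, h.1 _ _ hp, h'.1 _ _ hp, sub_zero], fun c p p' => by
    rw [e_sub, e_sub, smul_sub, smul_sub, h.2, h'.2]⟩

theorem wInv_one : WInv u K (1 : Ker G R) := by
  classical
  refine ⟨fun p p' hp => ?_, fun c p p' => ?_⟩
  · rw [e_one, if_neg]
    rintro rfl
    exact hp (by rw [inv_mul_cancel]; exact K.one_mem)
  · rw [e_one, e_one]
    by_cases h : p = p'
    · subst h
      rw [if_pos rfl, if_pos rfl, div_self (hu _).ne', div_self (hu _).ne']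
    · rw [if_neg h, if_neg fun h2 => h (mul_left_cancel h2), smul_zero, smul_zero]

theorem WInv.nw {k : Ker G R} (h : WInv u K k) : WInv u K (nw k) := by
  unfold Lim.nw
  have h2 : WInv u K (2 * k - 1) := by
    rw [two_mul]
    exact (h.add hu h).sub hu (wInv_one hu)
  exact h.sub hu (h2.mul hu ((h.mul hu h).sub hu h))

omit hu in
theorem wInv_closed : IsClosed {k : Ker G R | WInv u K k} := by
  have : {k : Ker G R | WInv u K k} =
      (⋂ p, ⋂ p', ⋂ (_ : p⁻¹ * p' ∉ K), {k : Ker G R | eL p p' k = 0}) ∩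
      ⋂ c, ⋂ p, ⋂ p', {k : Ker G R | ((u (c * p) / u (c * p') : ℝ) : ℂ) • eL (c * p) (c * p') k =
      ((u p / u p' : ℝ) : ℂ) • eL p p' k} := by
    ext k
    simp only [Set.mem_inter_iff, Set.mem_iInter, Set.mem_ofPred_eq, WInv, eL_apply]
  rw [this]
  refine IsClosed.inter ?_ ?_
  · exact isClosed_iInter fun p => isClosed_iInter fun p' => isClosed_iInter fun _ =>
      isClosed_eq (eL p p').continuous continuous_const
  · exact isClosed_iInter fun c => isClosed_iInter fun p => isClosed_iInter fun p' =>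
      isClosed_eq ((eL (R := R) (c * p) (c * p')).continuous.const_smul _)
        ((eL (R := R) p p').continuous.const_smul _)

theorem wInv_ut {g : G} (hg : Adm u g) (hK : g ∈ K) (r : R) : WInv u K (ut u g r) := by
  classical
  refine ⟨fun p p' hp => ?_, fun c p p' => ?_⟩
  · rw [e_ut hu hg, if_neg fun h => hp (by rw [h]; exact hK)]
  · have h0 : (c * p)⁻¹ * (c * p') = p⁻¹ * p' := by group
    rw [e_ut hu hg, e_ut hu hg, h0]
    split_ifs with h1
    · rw [smul_smul, smul_smul, ← Complex.ofReal_mul, ← Complex.ofReal_mul]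
      congr 2
      have h1 := (hu p).ne'
      have h2 := (hu p').ne'
      have h3 := (hu (c * p)).ne'
      have h4 := (hu (c * p')).ne'
      field_simp
    · rw [smul_zero, smul_zero]

/-- The invariant kernel of a weighted invariant kernel. -/
theorem unw_sm (hu2 : ∀ p, 1 ≤ u p) (k : Ker G R) :
    (Summable fun g => ‖(((u g)⁻¹ : ℝ) : ℂ) • k.e 1 g‖) ∧
    (Summable fun g => ‖(((u g)⁻¹ : ℝ) : ℂ) • k.e 1 g‖ * u g) ∧
    (∑' g, ‖(((u g)⁻¹ : ℝ) : ℂ) • k.e 1 g‖ ≤ ‖k‖) ∧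
    ∑' g, ‖(((u g)⁻¹ : ℝ) : ℂ) • k.e 1 g‖ * u g ≤ ‖k‖ := by
  have h1 : ∀ g, ‖(((u g)⁻¹ : ℝ) : ℂ) • k.e 1 g‖ * u g = ‖k.e 1 g‖ := by
    intro g
    rw [norm_smul, Complex.norm_real, Real.norm_of_nonneg (inv_nonneg.2 (hu g).le)]
    have := (hu g).ne'
    field_simp
  have h2 : ∀ g, ‖(((u g)⁻¹ : ℝ) : ℂ) • k.e 1 g‖ ≤ ‖k.e 1 g‖ := by
    intro g
    rw [← h1]
    exact le_mul_of_one_le_right (norm_nonneg _) (hu2 g)
  have h3 : Summable fun g => ‖(((u g)⁻¹ : ℝ) : ℂ) • k.e 1 g‖ :=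
    Summable.of_nonneg_of_le (fun _ => norm_nonneg _) h2 (sm_e k)
  have h4 : ∑' g, ‖k.e 1 g‖ ≤ ‖k‖ := by
    rw [norm_def]
    refine (sm_e k).tsum_le_tsum (fun g => ?_) k.summable
    have := norm_e_le k 1 g
    rwa [inv_one, one_mul] at this
  refine ⟨h3, by simpa only [h1] using sm_e k, (h3.tsum_le_tsum h2 (sm_e k)).trans h4, ?_⟩
  simpa only [h1] using h4

/-- The invariant kernel of a weighted invariant kernel. -/
noncomputable def unw (hu2 : ∀ p, 1 ≤ u p) (k : Ker G R) : Ker G R :=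
  kr (fun g => (((u g)⁻¹ : ℝ) : ℂ) • k.e 1 g) (unw_sm hu hu2 k).1

variable (hu2 : ∀ p, 1 ≤ u p)

theorem norm_unw (k : Ker G R) : ‖unw hu hu2 k‖ ≤ ‖k‖ := by
  unfold unw
  rw [norm_kr]
  exact (unw_sm hu hu2 k).2.2.1

variable (hu1 : u 1 = 1)

include hu1

theorem e_unw {k : Ker G R} (h : WInv u K k) (p p' : G) :
    (unw hu hu2 k).e p p' = ((u p / u p' : ℝ) : ℂ) • k.e p p' := by
  unfold unw
  rw [e_kr]
  have h1 := h.2 p⁻¹ p p'
  rw [inv_mul_cancel, hu1, one_div] at h1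
  exact h1

theorem unw_mul {k k' : Ker G R} (h : WInv u K k) (h' : WInv u K k') :
    unw hu hu2 (k * k') = unw hu hu2 k * unw hu hu2 k' := by
  ext p p'
  rw [e_mul, e_unw hu hu2 hu1 (h.mul hu h'), e_mul, ← tsum_const_smul'']
  refine tsum_congr fun l => ?_
  rw [e_unw hu hu2 hu1 h, e_unw hu hu2 hu1 h', smul_mul_smul_comm, ← Complex.ofReal_mul]
  congr 2
  have := (hu l).ne'
  field_simp

theorem unw_sub {k k' : Ker G R} (h : WInv u K k) (h' : WInv u K k') :
    unw hu hu2 (k - k') = unw hu hu2 k - unw hu hu2 k' := by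
  ext p p'
  rw [e_sub, e_unw hu hu2 hu1 (h.sub hu h'), e_unw hu hu2 hu1 h, e_unw hu hu2 hu1 h', e_sub,
    smul_sub]

theorem unw_ut {g : G} (hg : Adm u g) (hK : g ∈ K) (r : R) :
    unw hu hu2 (ut u g r) = pt g r := by
  classical
  ext p p'
  rw [e_unw hu hu2 hu1 (wInv_ut hu hg hK r), e_ut hu hg, e_pt]
  split_ifs
  · rw [smul_smul, ← Complex.ofReal_mul]
    have h1 := (hu p).ne'
    have h2 := (hu p').ne'
    rw [show u p / u p' * (u p' / u p) = 1 by field_simp, Complex.ofReal_one, one_smul]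
  · rw [smul_zero]

theorem unw_sum {S0 : Finset G} (a : G → R) (hA : ∀ x ∈ S0, Adm u x) (hK : ∀ x ∈ S0, x ∈ K) :
    WInv u K (∑ x ∈ S0, ut u x (a x)) ∧
    unw hu hu2 (∑ x ∈ S0, ut u x (a x)) = ∑ x ∈ S0, pt x (a x) := by
  classical
  induction S0 using Finset.induction_on with
  | empty =>
    refine ⟨⟨fun p p' _ => ?_, fun c p p' => ?_⟩, ?_⟩
    · rw [Finset.sum_empty, e_zero]
    · rw [Finset.sum_empty, e_zero, e_zero, smul_zero, smul_zero]
    · rw [Finset.sum_empty, Finset.sum_empty]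
      ext p p'
      unfold unw
      rw [e_kr, e_zero, e_zero, smul_zero]
  | insert i T hi ih =>
    obtain ⟨i1, i2⟩ := ih (fun x hx => hA x (Finset.mem_insert_of_mem hx))
      fun x hx => hK x (Finset.mem_insert_of_mem hx)
    have h1 := hA i (Finset.mem_insert_self _ _)
    have h2 := hK i (Finset.mem_insert_self _ _)
    rw [Finset.sum_insert hi, Finset.sum_insert hi]
    refine ⟨(wInv_ut hu h1 h2 _).add hu i1, ?_⟩
    rw [← i2, ← unw_ut hu hu2 hu1 h1 h2]
    ext p p'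
    rw [e_add, e_unw hu hu2 hu1 ((wInv_ut hu h1 h2 _).add hu i1),
      e_unw hu hu2 hu1 (wInv_ut hu h1 h2 _), e_unw hu hu2 hu1 i1, e_add, smul_add]

end Wt

end Vale.Agent.P184.H250
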